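import Vale.Agent.P211.Final

namespace Vale.Agent.Results.P211.A_const

open scoped ContDiff Manifold
open Vale.Agent.P255 Vale.Agent.P211

theorem result {M : Type*} [TopologicalSpace M] [ChartedSpace E4 M] [IsManifold 𝓘(ℝ, E4) ∞ M]
    [T2Space M] [CompactSpace M] [ConnectedSpace M] (g : Metric E4 M) (l : ℝ) (hl : 0 < l)
    (hE : Einstein g l) (hK : SecNonneg g) (p c : ℝ) (hp : 1 / 3 < p)
    (h : ∀ x e, ON g x e → wn g l 1 x e ^ p + wn g l (-1) x e ^ p = c) :
    LocSymm g ∧ ∀ x e, ON g x e → ∀ s, s = 1 ∨ s = -1 →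
      wn g l s x e = 0 ∨ wn g l s x e = √(2 / 3) * l :=
  final hl hE hK hp h

end Vale.Agent.Results.P211.A_const
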