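import Vale.Agent.P211.E.Final

namespace Vale.Agent.Results.P211.B_ext

open scoped ContDiff Manifold
open Vale.Agent.P255 Vale.Agent.P211

theorem result {M : Type*} [TopologicalSpace M] [ChartedSpace E4 M] [IsManifold 𝓘(ℝ, E4) ∞ M]
    [T2Space M] [CompactSpace M] [ConnectedSpace M] (g : Metric E4 M) (l : ℝ) (hl : 0 < l)
    (hE : Einstein g l) (hK : SecNonneg g)
    (H : (∃ p c : ℝ, 1 / 3 < p ∧ ∀ x e, ON g x e → wn g l 1 x e ^ p + wn g l (-1) x e ^ p = c) ∨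
      (∃ κ, MinSec g κ) ∨ ∃ κ, MaxSec g κ) :
    LocSymm g ∧ (∀ x e, ON g x e → ∀ s, s = 1 ∨ s = -1 →
      wn g l s x e = 0 ∨ wn g l s x e = √(2 / 3) * l) ∧
      (MinSec g 0 → ∀ x e, ON g x e → ∀ s, s = 1 ∨ s = -1 → wn g l s x e = √(2 / 3) * l) :=
  finalE hl hE hK H

end Vale.Agent.Results.P211.B_ext
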